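import Vale.Agent.P092.RC.Cc
import Vale.Agent.P092.H933.HM4

/-!
P092 (helper455), Team N, block [N-HM]: Mautner data for `SL_n(k)`, every `n`, every local field.
An unbounded set generates a subgroup whose fixed vectors are fixed by the whole group.
-/

set_option linter.all false

open scoped Matrix
open Matrix Filter Topology

namespace Vale.Agent.P092.H455

open Vale.Agent.P092.H933 (LocK URep fixedSub mem_fixedSub)
open Vale.Agent.P092.RC (Moore)
open scoped InnerProductSpace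

section gen

variable {E : Type} [Group E] [TopologicalSpace E]

theorem moore_mono {R R' : Set E} (h : Moore R) (hR : R ⊆ R') : Moore R' :=
  fun 𝓗 _ _ _ u h1 h2 ξ hξ => h 𝓗 u h1 h2 ξ fun q hq => hξ q (hR hq)

/-- the fixed vectors of a set are fixed by the subgroup it generates -/
theorem moore_closure {S : Set E} (h : Moore ((Subgroup.closure S : Subgroup E) : Set E)) :
    Moore S := by
  intro 𝓗 _ _ _ u h1 h2 ξ hξ
  refine h 𝓗 u h1 h2 ξ fun g hg => ?_
  have hm : ∀ (a b : E) (v : 𝓗), u (a * b) v = u a (u b v) := fun a b v => by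
    rw [map_mul]; rfl
  refine Subgroup.closure_induction (p := fun g _ => u g ξ = ξ) (fun g hg => hξ g hg) ?_ ?_ ?_ hg
  · rw [map_one]; rfl
  · intro a b _ _ ha hb
    rw [hm, hb, ha]
  · intro a _ ha
    have h3 : u a⁻¹ (u a ξ) = ξ := by
      rw [← hm, inv_mul_cancel, map_one]; rfl
    rwa [ha] at h3

theorem moore_conj {R : Set E} (h : Moore R) (g : E) : Moore {x | g⁻¹ * x * g ∈ R} := by
  intro 𝓗 _ _ _ u h1 h2 ξ hξ
  have hm : ∀ (a b : E) (v : 𝓗), u (a * b) v = u a (u b v) := fun a b v => by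
    rw [map_mul]; rfl
  have h3 : ∀ q ∈ R, u q (u g⁻¹ ξ) = u g⁻¹ ξ := by
    intro q hq
    have h4 : u (g * q * g⁻¹) ξ = ξ := hξ _ (by
      change g⁻¹ * (g * q * g⁻¹) * g ∈ R
      have e : g⁻¹ * (g * q * g⁻¹) * g = q := by group
      rwa [e])
    have h5 : u g⁻¹ (u (g * q * g⁻¹) ξ) = u g⁻¹ ξ := by rw [h4]
    rw [← hm] at h5 ⊢
    rw [← h5]
    congr 2
    group
  have h4 := h 𝓗 u h1 h2 (u g⁻¹ ξ) h3
  have h5 : ξ = u g⁻¹ ξ := by
    have h6 := h4 g
    rw [← hm, mul_inv_cancel, map_one] at h6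
    exact h6
  intro x
  rw [h5]
  exact h4 x

/-- preimages under continuous involutions -/
theorem moore_inv {R : Set E} (h : Moore R) (φ : E →* E) (hφ : Continuous φ)
    (hφ2 : ∀ g, φ (φ g) = g) : Moore (φ ⁻¹' R) := by
  intro 𝓗 _ _ _ u h1 h2 ξ hξ
  have h3 := h 𝓗 (u.comp φ) (fun g η => h1 _ η) (fun η => (h2 η).comp hφ) ξ fun q hq => hξ (φ q) (by
    change φ (φ q) ∈ R
    rwa [hφ2])
  intro g
  have h4 := h3 (φ g)
  change u (φ (φ g)) ξ = ξ at h4
  rwa [hφ2] at h4

end gen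

section sl

variable {n : ℕ} {k : Type} [NontriviallyNormedField k]

/-- the sup of the entries -/
noncomputable def mx (A : Matrix (Fin n) (Fin n) k) : ℝ := ∑ i, ∑ j, ‖A i j‖

theorem mx_nonneg (A : Matrix (Fin n) (Fin n) k) : 0 ≤ mx A :=
  Finset.sum_nonneg fun i _ => Finset.sum_nonneg fun j _ => norm_nonneg _

theorem le_mx (A : Matrix (Fin n) (Fin n) k) (i j : Fin n) : ‖A i j‖ ≤ mx A :=
  (Finset.single_le_sum (f := fun j => ‖A i j‖) (fun j _ => norm_nonneg _)
    (Finset.mem_univ j)).trans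
    (Finset.single_le_sum (f := fun i => ∑ j, ‖A i j‖)
      (fun i _ => Finset.sum_nonneg fun j _ => norm_nonneg _) (Finset.mem_univ i))

theorem mx_mul (A B : Matrix (Fin n) (Fin n) k) : mx (A * B) ≤ mx A * mx B := by
  unfold mx
  calc ∑ i, ∑ j, ‖(A * B) i j‖ ≤ ∑ i, ∑ j, ∑ l, ‖A i l‖ * ‖B l j‖ := by
        refine Finset.sum_le_sum fun i _ => Finset.sum_le_sum fun j _ => ?_
        rw [Matrix.mul_apply]
        refine (norm_sum_le _ _).trans (le_of_eq ?_)
        exact Finset.sum_congr rfl fun l _ => norm_mul _ _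
    _ = ∑ i, ∑ l, ‖A i l‖ * ∑ j, ‖B l j‖ := by
        refine Finset.sum_congr rfl fun i _ => ?_
        rw [Finset.sum_comm]
        exact Finset.sum_congr rfl fun l _ => (Finset.mul_sum _ _ _).symm
    _ ≤ ∑ i, ∑ l, ‖A i l‖ * ∑ l', ∑ j, ‖B l' j‖ := by
        refine Finset.sum_le_sum fun i _ => Finset.sum_le_sum fun l _ => ?_
        exact mul_le_mul_of_nonneg_left (Finset.single_le_sum (f := fun l => ∑ j, ‖B l j‖)
          (fun l _ => Finset.sum_nonneg fun j _ => norm_nonneg _) (Finset.mem_univ l))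
          (norm_nonneg _)
    _ = (∑ i, ∑ j, ‖A i j‖) * ∑ i, ∑ j, ‖B i j‖ := by
        rw [Finset.sum_mul]
        exact Finset.sum_congr rfl fun i _ => (Finset.sum_mul _ _ _).symm

theorem mx_cont : Continuous fun g : SpecialLinearGroup (Fin n) k => mx g.1 := by
  have hv : Continuous fun g : SpecialLinearGroup (Fin n) k => g.1 := continuous_subtype_val
  unfold mx
  refine continuous_finset_sum _ fun i _ => continuous_finset_sum _ fun j _ => ?_
  exact ((continuous_apply_apply i j).comp hv).norm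

theorem tendsto_cocompact {ι : Type*} {l : Filter ι} {b : ι → SpecialLinearGroup (Fin n) k}
    (h : Tendsto (fun N => mx (b N).1) l atTop) :
    Tendsto b l (cocompact (SpecialLinearGroup (Fin n) k)) := by
  rw [hasBasis_cocompact.tendsto_right_iff]
  intro K hK
  obtain ⟨C, hC⟩ := (hK.image mx_cont).bddAbove
  filter_upwards [h.eventually_gt_atTop C] with N hN
  intro hm
  exact absurd (hC ⟨b N, hm, rfl⟩) (not_le.2 hN)

/-- An escaping sequence is a Moore set. -/
theorem moore_seq [ProperSpace k] (hk : LocK k) (hn : 2 ≤ n)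
    {b : ℕ → SpecialLinearGroup (Fin n) k} (hb : Tendsto b atTop (cocompact _)) :
    Moore (Set.range b) := by
  intro 𝓗 _ _ _ u h1 h2 ξ hξ
  have hu : URep u := ⟨h1, fun η => by
    have h3 := (h2 η).tendsto 1
    rwa [map_one] at h3⟩
  have h4 := H933.HM.tendsto_proj hk hn hu hb (tendsto_const_nhds (x := ξ))
    (tendsto_const_nhds (x := ξ))
  have h5 : ∀ N, ⟪u (b N) ξ, ξ⟫_ℂ = ⟪ξ, ξ⟫_ℂ := fun N => by rw [hξ _ ⟨N, rfl⟩]
  simp_rw [h5] at h4
  have h6 : ⟪ξ, ξ⟫_ℂ = ⟪(fixedSub u).starProjection ξ, ξ⟫_ℂ := tendsto_nhds_unique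
    tendsto_const_nhds h4
  have h7 : ξ - (fixedSub u).starProjection ξ = 0 := by
    rw [← inner_self_eq_zero (𝕜 := ℂ), inner_sub_right]
    have h8 : ⟪ξ - (fixedSub u).starProjection ξ, (fixedSub u).starProjection ξ⟫_ℂ = 0 :=
      Submodule.starProjection_inner_eq_zero ξ _ (Submodule.starProjection_apply_mem _ _)
    rw [h8, inner_sub_left, ← h6, sub_self, sub_zero]
  have h9 : ξ ∈ fixedSub u := by
    rw [sub_eq_zero.1 h7]
    exact Submodule.starProjection_apply_mem _ _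
  exact fun g => mem_fixedSub.1 h9 g

/-- A set which generates an unbounded subgroup is a Moore set. -/
theorem moore_of_unbdd [ProperSpace k] (hk : LocK k) (hn : 2 ≤ n)
    {S : Set (SpecialLinearGroup (Fin n) k)}
    (h : ∀ C : ℝ, ∃ g ∈ Subgroup.closure S, C < mx g.1) : Moore S := by
  refine moore_closure ?_
  choose b hb hC using fun N : ℕ => h N
  have h1 : Tendsto (fun N => mx (b N).1) atTop atTop :=
    tendsto_atTop_mono (fun N => (hC N).le) tendsto_natCast_atTop_atTop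
  refine moore_mono (moore_seq hk hn (tendsto_cocompact h1)) ?_
  rintro _ ⟨N, rfl⟩
  exact hb N

theorem moore_of_unbdd' [ProperSpace k] (hk : LocK k) (hn : 2 ≤ n)
    {S : Set (SpecialLinearGroup (Fin n) k)} (h : ∀ C : ℝ, ∃ g ∈ S, C < mx g.1) : Moore S :=
  moore_of_unbdd hk hn fun C => by
    obtain ⟨g, hg, h1⟩ := h C
    exact ⟨g, Subgroup.subset_closure hg, h1⟩

/-! ### Transvections -/

/-- `1 + t v ⊗ φ` with `φ(v) = 0` -/
def tv (v φ : Fin n → k) (h : φ ⬝ᵥ v = 0) (t : k) : SpecialLinearGroup (Fin n) k :=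
  ⟨1 + Matrix.vecMulVec (t • v) φ, by
    have e : Matrix.vecMulVec (t • v) φ =
        Matrix.replicateCol Unit (t • v) * Matrix.replicateRow Unit φ := by
      ext i j
      simp [Matrix.vecMulVec_apply, Matrix.mul_apply]
    rw [e, Matrix.det_one_add_replicateCol_mul_replicateRow, dotProduct_smul, h]
    simp⟩

theorem tv_coe (v φ : Fin n → k) (h : φ ⬝ᵥ v = 0) (t : k) :
    (tv v φ h t).1 = 1 + Matrix.vecMulVec (t • v) φ := rfl

theorem tv_mulVec (v φ : Fin n → k) (h : φ ⬝ᵥ v = 0) (t : k) (x : Fin n → k) :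
    (tv v φ h t).1 *ᵥ x = x + (t * (φ ⬝ᵥ x)) • v := by
  rw [tv_coe, Matrix.add_mulVec, Matrix.one_mulVec]
  congr 1
  funext i
  simp only [Matrix.mulVec, dotProduct, Matrix.vecMulVec_apply, Pi.smul_apply, smul_eq_mul]
  rw [Finset.mul_sum, Finset.sum_mul]
  exact Finset.sum_congr rfl fun j _ => by ring

theorem moore_tv [ProperSpace k] (hk : LocK k) (hn : 2 ≤ n) {v φ : Fin n → k} (hv : v ≠ 0)
    (hφ : φ ≠ 0) (h : φ ⬝ᵥ v = 0) : Moore (Set.range (tv v φ h)) := by
  refine moore_of_unbdd' hk hn fun C => ?_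
  obtain ⟨i, hi⟩ := Function.ne_iff.1 hv
  obtain ⟨j, hj⟩ := Function.ne_iff.1 hφ
  simp only [Pi.zero_apply] at hi hj
  have hij : 0 < ‖v i‖ * ‖φ j‖ := mul_pos (norm_pos_iff.2 hi) (norm_pos_iff.2 hj)
  obtain ⟨t, ht⟩ := NormedField.exists_lt_norm k ((C + 1) / (‖v i‖ * ‖φ j‖))
  refine ⟨_, ⟨t, rfl⟩, lt_of_lt_of_le ?_ (le_mx _ i j)⟩
  have e : (tv v φ h t).1 i j = (1 : Matrix (Fin n) (Fin n) k) i j + t * v i * φ j := by
    rw [tv_coe, Matrix.add_apply, Matrix.vecMulVec_apply, Pi.smul_apply, smul_eq_mul]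
  have h1 : ‖(1 : Matrix (Fin n) (Fin n) k) i j‖ ≤ 1 := by
    rw [Matrix.one_apply]
    split_ifs <;> simp
  have h2 : ‖t * v i * φ j‖ ≤ ‖(tv v φ h t).1 i j‖ + 1 := by
    have h3 : t * v i * φ j = (tv v φ h t).1 i j - (1 : Matrix (Fin n) (Fin n) k) i j := by
      rw [e]; ring
    rw [h3]
    exact (norm_sub_le _ _).trans (by linarith)
  have h4 : C + 1 < ‖t * v i * φ j‖ := by
    rw [norm_mul, norm_mul, mul_assoc]
    rwa [div_lt_iff₀ hij] at ht
  linarith

end sl

end Vale.Agent.P092.H455
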