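import Vale.Agent.P092.H455.Hm1

/-!
P092 (helper455), Team N, block [N-HM]: the intersections of two maximal parabolic subgroups of
`SL_n(k)`, `n ≥ 3`, tori and wall elements are Moore sets.
-/

set_option linter.all false

open scoped Matrix
open Matrix Filter Topology

namespace Vale.Agent.P092.H455

open Vale.Agent.P092.H933 (LocK)
open Vale.Agent.P092.RC (Moore)

section lin

variable {n : ℕ} {k : Type} [Field k]

/-- a proper subspace lies in a hyperplane -/
theorem exists_phi (W : Submodule k (Fin n → k)) (hW : W ≠ ⊤) :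
    ∃ φ : Fin n → k, φ ≠ 0 ∧ ∀ w ∈ W, φ ⬝ᵥ w = 0 := by
  obtain ⟨f, hf, hW'⟩ := Submodule.exists_le_ker_of_lt_top W (lt_top_iff_ne_top.2 hW)
  have hfd : ∀ x : Fin n → k, (fun i => f (Pi.single i 1)) ⬝ᵥ x = f x := by
    intro x
    have h1 : x = ∑ i, x i • (Pi.single i (1 : k) : Fin n → k) := by
      funext j
      simp [Finset.sum_apply, Pi.single_apply]
    conv_rhs => rw [h1, map_sum]
    simp only [dotProduct, map_smul, smul_eq_mul]
    exact Finset.sum_congr rfl fun i _ => mul_comm _ _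
  refine ⟨fun i => f (Pi.single i 1), fun h => hf ?_, fun w hw => ?_⟩
  · refine LinearMap.ext fun x => ?_
    rw [← hfd x, h, zero_dotProduct]
    rfl
  · rw [hfd w]
    exact LinearMap.mem_ker.1 (hW' hw)

theorem span_ne_top (hn : 2 ≤ n) (v : Fin n → k) : Submodule.span k {v} ≠ ⊤ := by
  intro h
  have h1 := finrank_span_le_card (R := k) ({v} : Set (Fin n → k))
  rw [h, finrank_top, Module.finrank_fin_fun] at h1
  simp at h1
  omega

/-- two subspaces are preserved by a nontrivial transvection group -/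
theorem exists_tv_two (hn : 3 ≤ n) (X Y : Submodule k (Fin n → k)) :
    ∃ v φ : Fin n → k, v ≠ 0 ∧ φ ≠ 0 ∧ φ ⬝ᵥ v = 0 ∧ (v ∈ X ∨ ∀ x ∈ X, φ ⬝ᵥ x = 0) ∧
      (v ∈ Y ∨ ∀ y ∈ Y, φ ⬝ᵥ y = 0) := by
  by_cases h1 : X ⊓ Y = ⊥
  · by_cases h2 : X ⊔ Y = ⊤
    · have h3 := Submodule.finrank_sup_add_finrank_inf_eq X Y
      rw [h1, h2, finrank_top, Module.finrank_fin_fun, finrank_bot, add_zero] at h3
      have key : ∀ X Y : Submodule k (Fin n → k), n = Module.finrank k X + Module.finrank k Y →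
          2 ≤ Module.finrank k X → ∃ v φ : Fin n → k, v ≠ 0 ∧ φ ≠ 0 ∧ φ ⬝ᵥ v = 0 ∧ v ∈ X ∧
            ∀ y ∈ Y, φ ⬝ᵥ y = 0 := by
        intro X Y h h'
        have h4 : X ≠ ⊥ := by
          rintro rfl
          rw [finrank_bot] at h'
          omega
        obtain ⟨v, hv, hv0⟩ := Submodule.exists_mem_ne_zero_of_ne_bot h4
        have h5 : Y ⊔ Submodule.span k {v} ≠ ⊤ := by
          intro h6
          have h7 := Submodule.finrank_add_le_finrank_add_finrank Y (Submodule.span k {v})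
          rw [h6, finrank_top, Module.finrank_fin_fun] at h7
          have h8 := finrank_span_le_card (R := k) ({v} : Set (Fin n → k))
          simp at h8
          omega
        obtain ⟨φ, hφ, hφ'⟩ := exists_phi _ h5
        exact ⟨v, φ, hv0, hφ, hφ' v (Submodule.mem_sup_right (Submodule.mem_span_singleton_self v)),
          hv, fun y hy => hφ' y (Submodule.mem_sup_left hy)⟩
      rcases le_or_gt 2 (Module.finrank k X) with h4 | h4
      · obtain ⟨v, φ, a1, a2, a3, a4, a5⟩ := key X Y h3 h4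
        exact ⟨v, φ, a1, a2, a3, Or.inl a4, Or.inr a5⟩
      · obtain ⟨v, φ, a1, a2, a3, a4, a5⟩ := key Y X (by omega) (by omega)
        exact ⟨v, φ, a1, a2, a3, Or.inr a5, Or.inl a4⟩
    · obtain ⟨φ, hφ, hφ'⟩ := exists_phi _ h2
      have h3 : ∃ v : Fin n → k, v ≠ 0 ∧ φ ⬝ᵥ v = 0 := by
        obtain ⟨v, hv, hv'⟩ := exists_phi _ (span_ne_top (k := k) (by omega : 2 ≤ n) φ)
        exact ⟨v, hv, by
          rw [dotProduct_comm]
          exact hv' φ (Submodule.mem_span_singleton_self φ)⟩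
      obtain ⟨v, hv, hv'⟩ := h3
      exact ⟨v, φ, hv, hφ, hv', Or.inr fun x hx => hφ' x (Submodule.mem_sup_left hx),
        Or.inr fun y hy => hφ' y (Submodule.mem_sup_right hy)⟩
  · obtain ⟨v, hv, hv0⟩ := Submodule.exists_mem_ne_zero_of_ne_bot h1
    obtain ⟨φ, hφ, hφ'⟩ := exists_phi _ (span_ne_top (k := k) (by omega : 2 ≤ n) v)
    exact ⟨v, φ, hv0, hφ, hφ' v (Submodule.mem_span_singleton_self v),
      Or.inl (Submodule.mem_inf.1 hv).1, Or.inl (Submodule.mem_inf.1 hv).2⟩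

end lin

section sl

variable {n : ℕ} {k : Type} [NontriviallyNormedField k]

/-- `g` maps `X` into itself -/
def Prs (X : Submodule k (Fin n → k)) : Set (SpecialLinearGroup (Fin n) k) :=
  {g | ∀ x ∈ X, g.1 *ᵥ x ∈ X}

theorem tv_prs {v φ : Fin n → k} (h : φ ⬝ᵥ v = 0) {X : Submodule k (Fin n → k)}
    (hX : v ∈ X ∨ ∀ x ∈ X, φ ⬝ᵥ x = 0) (t : k) : tv v φ h t ∈ Prs X := by
  intro x hx
  rw [tv_mulVec]
  rcases hX with h1 | h1
  · exact X.add_mem hx (X.smul_mem _ h1)
  · rw [h1 x hx, mul_zero, zero_smul, add_zero]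
    exact hx

theorem prs_map {X : Submodule k (Fin n → k)} {g : SpecialLinearGroup (Fin n) k} :
    g ∈ Prs X ↔ X.map (Matrix.toLin' g.1) = X := by
  have hinj : Function.Injective (Matrix.toLin' g.1) := by
    intro x y hxy
    have h1 : g⁻¹.1 *ᵥ (g.1 *ᵥ x) = g⁻¹.1 *ᵥ (g.1 *ᵥ y) := by
      have h2 : g.1 *ᵥ x = g.1 *ᵥ y := by simpa [Matrix.toLin'_apply] using hxy
      rw [h2]
    rw [Matrix.mulVec_mulVec, Matrix.mulVec_mulVec] at h1
    have h3 : g⁻¹.1 * g.1 = 1 := congrArg Subtype.val (inv_mul_cancel g)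
    rwa [h3, Matrix.one_mulVec, Matrix.one_mulVec] at h1
  constructor
  · intro h
    refine Submodule.eq_of_le_of_finrank_eq ?_ ?_
    · rintro _ ⟨x, hx, rfl⟩
      rw [Matrix.toLin'_apply]
      exact h x hx
    · exact (Submodule.equivMapOfInjective _ hinj X).finrank_eq.symm
  · intro h x hx
    rw [← h]
    exact ⟨x, hx, by rw [Matrix.toLin'_apply]⟩

variable [ProperSpace k]

/-- **P_X ∩ P_Y is a Moore set**, for all subspaces `X`, `Y`, `n ≥ 3`. -/
theorem moore_two (hk : LocK k) (hn : 3 ≤ n) (X Y : Submodule k (Fin n → k)) :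
    Moore (Prs X ∩ Prs Y) := by
  obtain ⟨v, φ, h1, h2, h3, h4, h5⟩ := exists_tv_two hn X Y
  refine moore_mono (moore_tv hk (by omega) h1 h2 h3) ?_
  rintro _ ⟨t, rfl⟩
  exact ⟨tv_prs h3 h4 t, tv_prs h3 h5 t⟩

/-- the same, with a set `S` which contains all elements which preserve `X` and `Y` -/
theorem moore_two' (hk : LocK k) (hn : 3 ≤ n) (X Y : Submodule k (Fin n → k))
    {S : Set (SpecialLinearGroup (Fin n) k)}
    (hS : ∀ g : SpecialLinearGroup (Fin n) k, X.map (Matrix.toLin' g.1) = X →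
      Y.map (Matrix.toLin' g.1) = Y → g ∈ S) : Moore S :=
  moore_mono (moore_two hk hn X Y) fun g hg => hS g (prs_map.1 hg.1) (prs_map.1 hg.2)

/-- the elements `1 + c ⊗ φ` with `φ(c) = 0` -/
def Nc (c : Fin n → k) : Set (SpecialLinearGroup (Fin n) k) :=
  {g | ∃ φ : Fin n → k, φ ⬝ᵥ c = 0 ∧ g.1 = 1 + Matrix.vecMulVec c φ}

theorem moore_Nc (hk : LocK k) (hn : 2 ≤ n) {c : Fin n → k} (hc : c ≠ 0) : Moore (Nc c) := by
  obtain ⟨φ, hφ, hφ'⟩ := exists_phi _ (span_ne_top (k := k) hn c)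
  have h0 := hφ' c (Submodule.mem_span_singleton_self c)
  refine moore_mono (moore_tv hk hn hc hφ h0) ?_
  rintro _ ⟨t, rfl⟩
  refine ⟨t • φ, by rw [smul_dotProduct, h0, smul_zero], ?_⟩
  rw [tv_coe]
  congr 1
  ext i j
  simp only [Matrix.vecMulVec_apply, Pi.smul_apply, smul_eq_mul]
  ring

/-- the elements `1 + v ⊗ c` with `c(v) = 0` -/
def Nh (c : Fin n → k) : Set (SpecialLinearGroup (Fin n) k) :=
  {g | ∃ v : Fin n → k, c ⬝ᵥ v = 0 ∧ g.1 = 1 + Matrix.vecMulVec v c}

theorem moore_Nh (hk : LocK k) (hn : 2 ≤ n) {c : Fin n → k} (hc : c ≠ 0) : Moore (Nh c) := by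
  obtain ⟨v, hv, hv'⟩ := exists_phi _ (span_ne_top (k := k) hn c)
  have h0 : c ⬝ᵥ v = 0 := by
    rw [dotProduct_comm]
    exact hv' c (Submodule.mem_span_singleton_self c)
  refine moore_mono (moore_tv hk hn hv hc h0) ?_
  rintro _ ⟨t, rfl⟩
  exact ⟨t • v, by rw [dotProduct_smul, h0, smul_zero], rfl⟩

/-! ### Root groups, tori, wall elements -/

/-- a root group -/
theorem moore_root (hk : LocK k) (hn : 2 ≤ n) {i j : Fin n} (hij : i ≠ j) :
    Moore {g : SpecialLinearGroup (Fin n) k | ∃ t : k, g.1 = 1 + Matrix.single i j t} := by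
  have h0 : (Pi.single j (1 : k) : Fin n → k) ⬝ᵥ Pi.single i 1 = 0 := by
    rw [single_one_dotProduct, Pi.single_apply, if_neg hij.symm]
  refine moore_mono (moore_tv hk hn (v := Pi.single i 1) (φ := Pi.single j 1)
    (fun h => by simpa using congrFun h i) (fun h => by simpa using congrFun h j) h0) ?_
  rintro _ ⟨t, rfl⟩
  refine ⟨t, ?_⟩
  rw [tv_coe]
  congr 1
  ext a b
  rw [Matrix.vecMulVec_apply, Pi.smul_apply, smul_eq_mul, Matrix.single_apply, Pi.single_apply,
    Pi.single_apply]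
  by_cases ha : a = i
  · by_cases hb : b = j
    · simp [ha, hb]
    · simp [ha, hb, Ne.symm hb]
  · simp [ha, Ne.symm ha]

/-- a single element with unbounded powers, along any unbounded family of exponents -/
theorem moore_pow (hk : LocK k) (hn : 2 ≤ n) (g : SpecialLinearGroup (Fin n) k)
    (h : ∀ C : ℝ, ∃ N : ℕ, C < mx (g ^ N).1) : Moore {g} := by
  refine moore_of_unbdd hk hn fun C => ?_
  obtain ⟨N, hN⟩ := h C
  exact ⟨g ^ N, (Subgroup.closure {g}).pow_mem (Subgroup.subset_closure rfl) N, hN⟩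

theorem pow_diag {g : SpecialLinearGroup (Fin n) k} {d : Fin n → k} (hg : g.1 = diagonal d)
    (N : ℕ) : (g ^ N).1 = diagonal (d ^ N) := by
  have e : (g ^ N).1 = g.1 ^ N := by
    induction N with
    | zero => simp
    | succ N ih => rw [pow_succ, pow_succ, ← ih]; rfl
  rw [e, hg, Matrix.diagonal_pow]

/-- a diagonal element with an entry of norm `> 1`: one power is enough -/
theorem moore_diag (hk : LocK k) (hn : 2 ≤ n) {g : SpecialLinearGroup (Fin n) k} {d : Fin n → k}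
    (hg : g.1 = diagonal d) {i : Fin n} (hi : 1 < ‖d i‖) {N : ℕ} (hN : N ≠ 0) : Moore {g ^ N} := by
  refine moore_pow hk hn _ fun C => ?_
  have h1 : 1 < ‖d i‖ ^ N := one_lt_pow₀ hi hN
  obtain ⟨M, hM⟩ := pow_unbounded_of_one_lt C h1
  refine ⟨M, lt_of_lt_of_le hM ?_⟩
  have e : (g ^ N) ^ M = g ^ (N * M) := (pow_mul g N M).symm
  rw [← pow_mul, e, pow_diag hg]
  refine le_trans (le_of_eq ?_) (le_mx _ i i)
  rw [diagonal_apply_eq, Pi.pow_apply, norm_pow, pow_mul]

/-- conjugates -/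
theorem moore_conj1 {g h : SpecialLinearGroup (Fin n) k} (hg : Moore {g}) : Moore {h * g * h⁻¹} :=
  moore_mono (moore_conj hg h) fun x hx => by
    rw [Set.mem_setOf_eq, Set.mem_singleton_iff] at hx
    rw [Set.mem_singleton_iff, ← hx]
    group

end sl

/-! ### Quotients -/

section quo

variable {G E : Type} [Group G] [TopologicalSpace G] [Group E] [TopologicalSpace E]

/-- Moore sets in a quotient -/
theorem moore_of_preimage (p : G →* E) (hp : Continuous p) (hs : Function.Surjective p)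
    {S : Set E} (h : Moore (p ⁻¹' S)) : Moore S := by
  intro 𝓗 _ _ _ u h1 h2 ξ hξ g
  obtain ⟨g, rfl⟩ := hs g
  exact h 𝓗 (u.comp p) (fun g η => h1 _ η) (fun η => (h2 η).comp hp) ξ
    (fun q hq => hξ (p q) hq) g

theorem moore_image (p : G →* E) (hp : Continuous p) (hs : Function.Surjective p)
    {S : Set G} (h : Moore S) : Moore (p '' S) :=
  moore_of_preimage p hp hs (moore_mono h (Set.subset_preimage_image p S))

end quo

end Vale.Agent.P092.H455
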