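import Vale.Agent.P092.H387.Ad2

/-!
P092 (helper455), Team N, [N-ADM]: the admissible source group `SL_n(k)` in the letters
`a' = sp ∘ ct` (inverse transpose on `SL_n(k)`), from helper387's `adm_sl`.
-/

set_option linter.all false

namespace Vale.Agent.P092.H455

open Vale.Agent.P092.RC (GG PG YY ct)
open Vale.Agent.P092.SN (Adm)
open Vale.Agent.P092.H933 (LocK)
open Vale.Agent.P092.H35 (sp)
open Vale.Agent.P092.H644.PGr (tauP tauP_can)

variable {k : Type} [NontriviallyNormedField k] {N : ℕ}

theorem tau_sp : (tauP k (N + 1)).comp (sp k (N + 1)) = (sp k (N + 1)).comp ct :=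
  MonoidHom.ext fun g => (tauP_can (g := g) (g' := ct g) rfl).symm

/-- **`SL_n(k)`**, literal of helper350's row [N-ADM] -/
theorem adm_sl [ProperSpace k] (hk : LocK k) (hN : 2 ≤ N) :
    Adm (MonoidHom.id (GG k N)) (sp k (N + 1)) ((sp k (N + 1)).comp ct) := by
  have h := H387.Ad.adm_sl hk hN
  rwa [tau_sp] at h

end Vale.Agent.P092.H455
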