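import Vale.Agent.P092.H455.Hm2

/-!
P092 (helper455), Team N, block [N-HM]: the Mautner data in the letters of the pointwise action of
`SL_n(k)` on the subspaces.
-/

set_option linter.all false

open scoped Matrix Pointwise
open Matrix Filter Topology

namespace Vale.Agent.P092.H455

open Vale.Agent.P092.H933 (LocK)
open Vale.Agent.P092.RC (Moore)

section sl

variable {n : ℕ} {k : Type} [NontriviallyNormedField k]

theorem smul_eq_mulVec (g : SpecialLinearGroup (Fin n) k) (x : Fin n → k) : g • x = g.1 *ᵥ x := rfl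

theorem smul_eq_map (g : SpecialLinearGroup (Fin n) k) (X : Submodule k (Fin n → k)) :
    g • X = X.map (Matrix.toLin' g.1) := by
  ext x
  rw [Submodule.mem_smul_pointwise_iff_exists, Submodule.mem_map]
  constructor
  · rintro ⟨y, hy, rfl⟩
    exact ⟨y, hy, by rw [Matrix.toLin'_apply, smul_eq_mulVec]⟩
  · rintro ⟨y, hy, rfl⟩
    exact ⟨y, hy, by rw [Matrix.toLin'_apply, smul_eq_mulVec]⟩

theorem prs_smul {X : Submodule k (Fin n → k)} {g : SpecialLinearGroup (Fin n) k} :
    g ∈ Prs X ↔ g • X = X := by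
  rw [prs_map, smul_eq_map]

variable [ProperSpace k]

/-- the stabiliser of two subspaces is a Moore set -/
theorem moore_stab (hk : LocK k) (hn : 3 ≤ n) (X Y : Submodule k (Fin n → k)) :
    Moore {g : SpecialLinearGroup (Fin n) k | g • X = X ∧ g • Y = Y} :=
  moore_mono (moore_two hk hn X Y) fun g hg => ⟨prs_smul.1 hg.1, prs_smul.1 hg.2⟩

theorem moore_stab1 (hk : LocK k) (hn : 3 ≤ n) (X : Submodule k (Fin n → k)) :
    Moore {g : SpecialLinearGroup (Fin n) k | g • X = X} :=
  moore_mono (moore_stab hk hn X X) fun g hg => hg.1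

end sl

section fac

variable {G E : Type} [Group G] [TopologicalSpace G] [Group E] [TopologicalSpace E]

/-- Vectors fixed by the image of a Moore set of one factor are fixed by the factor. -/
theorem moore_factor {S : Set G} (h : Moore S) (i : G →* E) (hi : Continuous i) {𝓗 : Type}
    [NormedAddCommGroup 𝓗] [InnerProductSpace ℂ 𝓗] [CompleteSpace 𝓗]
    (u : E →* (𝓗 →L[ℂ] 𝓗)) (h1 : ∀ g ξ, ‖u g ξ‖ = ‖ξ‖) (h2 : ∀ ξ, Continuous fun g => u g ξ)
    {ξ : 𝓗} (hξ : ∀ g ∈ S, u (i g) ξ = ξ) (g : G) : u (i g) ξ = ξ :=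
  h 𝓗 (u.comp i) (fun g η => h1 _ η) (fun η => (h2 η).comp hi) ξ hξ g

/-- `S × H` is a Moore set of a product if `S` is a Moore set of the first factor. -/
theorem moore_prod {S : Set G} (h : Moore S) :
    Moore ((fun g : G => ((g, 1) : G × E)) '' S ∪ Set.range fun x : E => ((1, x) : G × E)) := by
  intro 𝓗 _ _ _ u h1 h2 ξ hξ g
  have hm : ∀ (a b : G × E) (v : 𝓗), u (a * b) v = u a (u b v) := fun a b v => by
    rw [map_mul]; rfl
  have h3 := moore_factor h (MonoidHom.inl G E) (by
    change Continuous fun g : G => ((g, 1) : G × E)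
    fun_prop) u h1 h2 (ξ := ξ) fun q hq => hξ _ (Or.inl ⟨q, hq, rfl⟩)
  have h4 : u ((1, g.2) : G × E) ξ = ξ := hξ _ (Or.inr ⟨g.2, rfl⟩)
  have e : g = ((g.1, 1) : G × E) * ((1, g.2) : G × E) := by
    rw [Prod.mk_mul_mk, mul_one, one_mul]
  rw [e, hm, h4]
  exact h3 g.1

end fac

/-! ### Points and hyperplanes in the letters of `ℙ` -/

section proj

open scoped LinearAlgebra.Projectivization

open Vale.Agent.P092.RC (GG YY ct)

variable {m : ℕ} {k : Type} [NontriviallyNormedField k]

/-- the line of a point -/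
theorem fix_of_prs {x : YY k m} {g : GG k m} (hg : g ∈ Prs (k := k) x.submodule) : g • x = x := by
  have h1 := prs_smul.1 hg
  refine Projectivization.submodule_injective ?_
  have h2 : (g • x).submodule = g • x.submodule := by
    induction x using Projectivization.ind with
    | h v hv =>
      rw [smul_eq_map]
      have e : g • Projectivization.mk k v hv = Projectivization.mk k (g.1 *ᵥ v) (by
          intro h0
          apply hv
          have h3 : g⁻¹.1 *ᵥ (g.1 *ᵥ v) = v := by
            have h4 : g⁻¹.1 * g.1 = 1 := congrArg Subtype.val (inv_mul_cancel g)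
            rw [Matrix.mulVec_mulVec, h4, Matrix.one_mulVec]
          rw [← h3, h0, Matrix.mulVec_zero]) := rfl
      rw [e, Projectivization.submodule_mk, Projectivization.submodule_mk, Submodule.map_span,
        Set.image_singleton, Matrix.toLin'_apply]
  rw [h2, h1]

variable [ProperSpace k]

theorem moore_pts (hk : LocK k) (hm : 2 ≤ m) (x y : YY k m) :
    Moore {g : GG k m | g • x = x ∧ g • y = y} :=
  moore_mono (moore_two (n := m + 1) hk (by omega) x.submodule y.submodule) fun g hg =>
    ⟨fix_of_prs hg.1, fix_of_prs hg.2⟩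

theorem moore_pt (hk : LocK k) (hm : 2 ≤ m) (x : YY k m) : Moore {g : GG k m | g • x = x} :=
  moore_mono (moore_pts hk hm x x) fun g hg => hg.1

theorem ct_ct (g : GG k m) : (ct (ct g : GG k m) : GG k m) = g := by
  have h1 : (ct g : GG k m)⁻¹ = ct g⁻¹ := (map_inv (ct : GG k m →* GG k m) g).symm
  apply Subtype.ext
  change ((ct g : GG k m)⁻¹).1ᵀ = g.1
  rw [h1]
  change ((g⁻¹⁻¹).1ᵀ)ᵀ = g.1
  rw [inv_inv, transpose_transpose]

theorem ct_cont : Continuous (ct : GG k m →* GG k m) := by
  have h1 : Continuous fun g : GG k m => g⁻¹ := continuous_inv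
  have hv : Continuous fun g : GG k m => g.1 := continuous_subtype_val
  exact Continuous.subtype_mk (hv.comp h1).matrix_transpose _

/-- hyperplanes, given by their coordinates, `g` acts by `ct g` -/
theorem moore_hyps (hk : LocK k) (hm : 2 ≤ m) (x y : YY k m) :
    Moore {g : GG k m | (ct g : GG k m) • x = x ∧ (ct g : GG k m) • y = y} :=
  moore_inv (moore_pts hk hm x y) ct ct_cont ct_ct

/-- a point and a hyperplane -/
theorem moore_pt_hyp (hk : LocK k) (hm : 2 ≤ m) (x y : YY k m) :
    Moore {g : GG k m | g • x = x ∧ (ct g : GG k m) • y = y} := by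
  -- the hyperplane as a subspace
  obtain ⟨v, φ, h1, h2, h3, h4, h5⟩ : ∃ v φ : Fin (m + 1) → k, v ≠ 0 ∧ φ ≠ 0 ∧ φ ⬝ᵥ v = 0 ∧
      (v ∈ x.submodule ∨ ∀ z ∈ x.submodule, φ ⬝ᵥ z = 0) ∧
      (φ ∈ y.submodule ∨ ∀ z ∈ y.submodule, v ⬝ᵥ z = 0) := by
    by_cases h0 : y.rep ⬝ᵥ x.rep = 0
    · refine ⟨x.rep, y.rep, x.rep_nonzero, y.rep_nonzero, h0, Or.inl ?_, Or.inl ?_⟩
      · rw [Projectivization.submodule_eq]; exact Submodule.mem_span_singleton_self _
      · rw [Projectivization.submodule_eq]; exact Submodule.mem_span_singleton_self _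
    · -- v in the hyperplane, φ vanishing at x and at v
      have hW : Submodule.span k {x.rep} ≠ ⊤ := span_ne_top (by omega) _
      obtain ⟨φ, hφ, hφ'⟩ := exists_phi _ hW
      have hW2 : Submodule.span k {φ} ⊔ Submodule.span k {y.rep} ≠ ⊤ := by
        intro h6
        have h7 := Submodule.finrank_add_le_finrank_add_finrank (Submodule.span k {φ})
          (Submodule.span k {y.rep})
        rw [h6, finrank_top, Module.finrank_fin_fun] at h7
        have h8 := finrank_span_le_card (R := k) ({φ} : Set (Fin (m + 1) → k))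
        have h9 := finrank_span_le_card (R := k) ({y.rep} : Set (Fin (m + 1) → k))
        simp at h8 h9
        omega
      obtain ⟨v, hv, hv'⟩ := exists_phi _ hW2
      refine ⟨v, φ, hv, hφ, ?_, Or.inr ?_, Or.inr ?_⟩
      · rw [dotProduct_comm]
        exact hv' φ (Submodule.mem_sup_left (Submodule.mem_span_singleton_self φ))
      · intro z hz
        rw [Projectivization.submodule_eq] at hz
        exact hφ' z hz
      · intro z hz
        rw [Projectivization.submodule_eq] at hz
        exact hv' z (Submodule.mem_sup_right hz)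
  refine moore_mono (moore_tv hk (by omega) h1 h2 h3) ?_
  rintro _ ⟨t, rfl⟩
  refine ⟨fix_of_prs (tv_prs h3 h4 t), fix_of_prs (g := ct (tv v φ h3 t)) ?_⟩
  -- the contragredient of a transvection
  have h3' : v ⬝ᵥ φ = 0 := by rw [dotProduct_comm]; exact h3
  have e : (ct (tv v φ h3 t) : GG k m) = tv φ v h3' (-t) := by
    have e1 : (tv v φ h3 t)⁻¹ = tv v φ h3 (-t) := by
      rw [inv_eq_iff_mul_eq_one]
      apply Subtype.ext
      change (tv v φ h3 t).1 * (tv v φ h3 (-t)).1 = 1
      rw [tv_coe, tv_coe, Matrix.mul_add, Matrix.mul_one, Matrix.add_mul, Matrix.one_mul,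
        Matrix.vecMulVec_mul_vecMulVec]
      ext a b
      simp only [Matrix.add_apply, Matrix.vecMulVec_apply, Matrix.smul_apply, Pi.smul_apply,
        smul_eq_mul, dotProduct_smul, h3]
      ring
    apply Subtype.ext
    change ((tv v φ h3 t)⁻¹).1ᵀ = _
    rw [e1, tv_coe, tv_coe, Matrix.transpose_add, Matrix.transpose_one]
    congr 1
    ext a b
    simp only [Matrix.transpose_apply, Matrix.vecMulVec_apply, Pi.smul_apply, smul_eq_mul]
    ring
  rw [e]
  exact tv_prs h3' h5 (-t)

end proj

end Vale.Agent.P092.H455
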