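import Vale.Agent.P092.H455.Hm3
import Vale.Agent.P092.H100.Gr2

/-!
P092 (helper455), Team N, block [N-HM]: the Mautner data for the Grassmannians of helper100.
-/

set_option linter.all false

open scoped Matrix Pointwise
open Matrix Filter Topology

namespace Vale.Agent.P092.H455

open Vale.Agent.P092.H933 (LocK)
open Vale.Agent.P092.RC (Moore)
open Vale.Agent.P092.H100.Gr (Gr lm smul_val)

variable {n : ℕ} {k : Type} [NontriviallyNormedField k]

theorem gr_of_prs {j : ℕ} {X : Gr k (Fin n) j} {g : SpecialLinearGroup (Fin n) k}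
    (hg : g ∈ Prs (k := k) X.1) : g • X = X := by
  refine Subtype.ext ?_
  rw [smul_val]
  have h1 := prs_map.1 hg
  have e : (lm k (Fin n) g : (Fin n → k) →ₗ[k] (Fin n → k)) = Matrix.toLin' g.1 := by
    refine LinearMap.ext fun x => ?_
    rw [Matrix.toLin'_apply]
    rfl
  rw [e]
  exact h1

variable [ProperSpace k]

/-- the stabiliser of two subspaces -/
theorem moore_gr (hk : LocK k) (hn : 3 ≤ n) {i j : ℕ} (X : Gr k (Fin n) i) (Y : Gr k (Fin n) j) :
    Moore {g : SpecialLinearGroup (Fin n) k | g • X = X ∧ g • Y = Y} :=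
  moore_mono (moore_two hk hn X.1 Y.1) fun g hg => ⟨gr_of_prs hg.1, gr_of_prs hg.2⟩

theorem moore_gr1 (hk : LocK k) (hn : 3 ≤ n) {j : ℕ} (X : Gr k (Fin n) j) :
    Moore {g : SpecialLinearGroup (Fin n) k | g • X = X} :=
  moore_mono (moore_gr hk hn X X) fun g hg => hg.1

/-- the same in a quotient (for example `PSL_n`) -/
theorem moore_gr_map (hk : LocK k) (hn : 3 ≤ n) {E : Type} [Group E] [TopologicalSpace E]
    (p : SpecialLinearGroup (Fin n) k →* E) (hp : Continuous p) (hs : Function.Surjective p)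
    {i j : ℕ} (X : Gr k (Fin n) i) (Y : Gr k (Fin n) j) {S : Set E}
    (hS : ∀ g : SpecialLinearGroup (Fin n) k, g • X = X → g • Y = Y → p g ∈ S) : Moore S :=
  moore_of_preimage p hp hs (moore_mono (moore_gr hk hn X Y) fun g hg => hS g hg.1 hg.2)

end Vale.Agent.P092.H455
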