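import Vale.Agent.P092.H455.Hm4

/-!
P092 (helper455), Team N, block [N-HM] (5): stabilisers in a product of groups.
-/

set_option linter.all false

open Filter Topology

namespace Vale.Agent.P092.H455

open Vale.Agent.P092.RC (Moore)

section pi

variable {I : Type} [DecidableEq I] {E : I → Type} [∀ j, Group (E j)]
  [∀ j, TopologicalSpace (E j)]

/-- The preimage of a Moore set of one factor (containing `1`) is a Moore set of the product. -/
theorem moore_pi (i : I) {S : Set (E i)} (h : Moore S) (h1 : (1 : E i) ∈ S) :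
    Moore {e : ∀ j, E j | e i ∈ S} := by
  intro 𝓗 _ _ _ u hu hc ξ hξ g
  have hm : ∀ (a b : ∀ j, E j) (v : 𝓗), u (a * b) v = u a (u b v) := fun a b v => by
    rw [map_mul]; rfl
  have h3 := moore_factor h (MonoidHom.mulSingle E i) (continuous_mulSingle i) u hu hc (ξ := ξ)
    fun q hq => hξ _ (by
      change (Pi.mulSingle i q : ∀ j, E j) i ∈ S
      rw [Pi.mulSingle_eq_same]; exact hq)
  have h4 : u (g * (MonoidHom.mulSingle E i (g i))⁻¹) ξ = ξ := by
    refine hξ _ ?_
    have e : (g * (MonoidHom.mulSingle E i (g i))⁻¹) i = 1 := by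
      change g i * ((Pi.mulSingle i (g i) : ∀ j, E j) i)⁻¹ = 1
      rw [Pi.mulSingle_eq_same, mul_inv_cancel]
    change (g * (MonoidHom.mulSingle E i (g i))⁻¹) i ∈ S
    rw [e]; exact h1
  have e : g = (g * (MonoidHom.mulSingle E i (g i))⁻¹) * MonoidHom.mulSingle E i (g i) := by
    rw [inv_mul_cancel_right]
  rw [e, hm, h3]
  exact h4

end pi

end Vale.Agent.P092.H455
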