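import Vale.Agent.P092.SN.Defs
import Vale.Agent.P092.H455.Hm5

/-!
P092 (helper455), Team N, [N-ADMP]: admissible source groups pass to products. The other factors are
arbitrary topological groups.
-/

set_option linter.all false

open Filter Topology
open scoped LinearAlgebra.Projectivization

namespace Vale.Agent.P092.H455

open Vale.Agent.P092.RC (Moore GG PG YY ct)
open Vale.Agent.P092.SN (Adm Prv)

section pi

variable {k : Type} [NontriviallyNormedField k] {N : ℕ}

theorem prv_one {E : Type} [Group E] (a : E →* PG k (N + 1))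
    (X : Submodule k (Fin (N + 1) → k)) : Prv a X 1 := fun x => by
  rw [map_one, one_smul]

/-- **Admissible source groups, products.** -/
theorem adm_pi {I : Type} [DecidableEq I] {E : I → Type} [∀ j, Group (E j)]
    [∀ j, TopologicalSpace (E j)] (hT : ∀ j, IsTopologicalGroup (E j)) (i : I)
    {ι : GG k N →* E i} {a a' : E i →* PG k (N + 1)} (h : Adm ι a a') :
    Adm ((MonoidHom.mulSingle E i).comp ι) (a.comp (Pi.evalMonoidHom E i))
      (a'.comp (Pi.evalMonoidHom E i)) := by
  have hs : ∀ x : E i, (Pi.evalMonoidHom E i) (MonoidHom.mulSingle E i x) = x := fun x =>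
    Pi.mulSingle_eq_same i x
  refine ⟨h.hN, Pi.topologicalGroup, (continuous_mulSingle i).comp h.cι,
    h.ca.comp (continuous_apply i), h.ca'.comp (continuous_apply i), fun g x => ?_, fun g x => ?_,
    fun e x l => h.ort (e i) x l, fun X Y => ?_⟩
  · change a ((Pi.evalMonoidHom E i) (MonoidHom.mulSingle E i (ι g))) • x = g • x
    rw [hs]; exact h.comp g x
  · change a' ((Pi.evalMonoidHom E i) (MonoidHom.mulSingle E i (ι g))) • x = ct g • x
    rw [hs]; exact h.comp' g x
  · exact moore_pi i (h.stb X Y) ⟨prv_one a X, prv_one a Y⟩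

/-- products with one other factor -/
theorem adm_fst {E E' : Type} [Group E] [TopologicalSpace E] [Group E'] [TopologicalSpace E']
    [IsTopologicalGroup E'] {ι : GG k N →* E} {a a' : E →* PG k (N + 1)} (h : Adm ι a a') :
    Adm ((MonoidHom.inl E E').comp ι) (a.comp (MonoidHom.fst E E'))
      (a'.comp (MonoidHom.fst E E')) := by
  haveI := h.tg
  refine ⟨h.hN, inferInstance, ?_, h.ca.comp continuous_fst, h.ca'.comp continuous_fst,
    fun g x => h.comp g x, fun g x => h.comp' g x, fun e x l => h.ort e.1 x l, fun X Y => ?_⟩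
  · exact (by fun_prop : Continuous fun g : E => ((g, 1) : E × E')).comp h.cι
  · refine moore_mono (moore_prod (E := E') (h.stb X Y)) ?_
    rintro q (⟨g, hg, rfl⟩ | ⟨x, rfl⟩)
    · exact hg
    · exact ⟨prv_one a X, prv_one a Y⟩

end pi

end Vale.Agent.P092.H455
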